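import Vale.Agent.P171.Comb

open Finset

namespace Vale.Agent.P012

open Vale.Agent.P171

lemma cs {α ι : Type} [DecidableEq ι] (s : Finset α) (lab : α → ι) (T : Finset ι)
    (h : ∀ y ∈ s, lab y ∈ T) :
    (s.card : ℝ) ^ 2 ≤ T.card * ∑ y ∈ s, ∑ y' ∈ s, if lab y = lab y' then (1 : ℝ) else 0 :=
  card_sq_le lab T s.val h

lemma exists_xi {p : ℕ} [hp : Fact p.Prime] (A : Finset (ZMod p)) (hA : p ^ 2 < A.card ^ 3) :
    ∃ ξ ∈ A, p < 2 * ((A ×ˢ A).image fun q => q.1 + ξ * q.2).card := by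
  by_contra hc
  push Not at hc
  let e : ZMod p → ℝ := fun ξ => ∑ q ∈ A ×ˢ A, ∑ q' ∈ A ×ˢ A,
    if q.1 + ξ * q.2 = q'.1 + ξ * q'.2 then (1 : ℝ) else 0
  have hp0 : (0 : ℝ) < p := by exact_mod_cast hp.out.pos
  obtain ⟨a, ha⟩ : ∃ a : ℝ, a = A.card := ⟨_, rfl⟩
  have c2 : ((A ×ˢ A).card : ℝ) = a ^ 2 := by rw [card_product, ha]; push_cast; ring
  have h1 : ∀ ξ, a ^ 4 ≤ p * e ξ := fun ξ => by
    have := cs (A ×ˢ A) (fun q => q.1 + ξ * q.2) univ (by simp)
    rw [c2, card_univ, ZMod.card] at this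
    calc a ^ 4 = (a ^ 2) ^ 2 := by ring
      _ ≤ _ := this
  have he0 : ∀ ξ, 0 ≤ e ξ := fun ξ => sum_nonneg fun _ _ => sum_nonneg fun _ _ => by
    split_ifs <;> norm_num
  have h2 : ∀ ξ ∈ A, 2 * a ^ 4 ≤ p * e ξ := fun ξ hξ => by
    have := cs (A ×ˢ A) (fun q => q.1 + ξ * q.2) _ fun y hy => mem_image_of_mem _ hy
    rw [c2] at this
    have h3 : 2 * (((A ×ˢ A).image fun q => q.1 + ξ * q.2).card : ℝ) ≤ p := by
      exact_mod_cast hc ξ hξ
    have h4 := mul_le_mul_of_nonneg_right h3 (he0 ξ)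
    change _ ≤ _ * e ξ at this
    nlinarith
  have h3 : ∑ ξ, e ξ ≤ a ^ 4 + p * a ^ 2 := by
    simp only [e]
    rw [sum_comm]
    calc _ ≤ ∑ q ∈ A ×ˢ A, (a ^ 2 + p) := by
          refine sum_le_sum fun q hq => ?_
          rw [sum_comm]
          calc _ ≤ ∑ q' ∈ A ×ˢ A, (1 + if q = q' then (p : ℝ) else 0) := by
                refine sum_le_sum fun q' _ => ?_
                rw [sum_boole]
                split_ifs with h
                · have := card_filter_le univ fun ξ : ZMod p => q.1 + ξ * q.2 = q'.1 + ξ * q'.2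
                  rw [card_univ, ZMod.card] at this
                  have h5 : ((univ.filter fun ξ : ZMod p =>
                    q.1 + ξ * q.2 = q'.1 + ξ * q'.2).card : ℝ) ≤ p := by exact_mod_cast this
                  linarith
                · rw [add_zero]
                  refine Nat.cast_le_one.mpr (card_le_one.mpr fun x hx y hy => ?_)
                  rw [mem_filter] at hx hy
                  by_contra hxy
                  have h6 : (x - y) * (q.2 - q'.2) = 0 := by linear_combination hx.2 - hy.2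
                  have h7 := sub_eq_zero.mp ((mul_eq_zero.mp h6).resolve_left (sub_ne_zero.mpr hxy))
                  exact h (Prod.ext (by have := hx.2; rw [h7] at this; simpa using this) h7)
            _ = _ := by rw [sum_add_distrib, sum_ite_eq, if_pos hq, sum_const, nsmul_eq_mul, c2, mul_one]
      _ = _ := by rw [sum_const, nsmul_eq_mul, c2]; ring
  have h4 : ∑ ξ : ZMod p, (a ^ 4 + if ξ ∈ A then a ^ 4 else 0) ≤ ∑ ξ, p * e ξ :=
    sum_le_sum fun ξ _ => by
      split_ifs with h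
      · linarith [h2 ξ h]
      · linarith [h1 ξ]
  rw [sum_add_distrib, sum_ite_mem, univ_inter, sum_const, sum_const, card_univ, ZMod.card,
    nsmul_eq_mul, nsmul_eq_mul, ← mul_sum, ← ha] at h4
  have h5 : (p : ℝ) ^ 2 < a ^ 3 := by rw [ha]; exact_mod_cast hA
  have ha0 : 0 < a := by
    by_contra h
    have : a = 0 := le_antisymm (not_lt.mp h) (by rw [ha]; positivity)
    rw [this] at h5; nlinarith
  have h6 := mul_le_mul_of_nonneg_left h3 hp0.le
  have h7 := mul_lt_mul_of_pos_right h5 (pow_pos ha0 2)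
  nlinarith

lemma cover {p : ℕ} [hp : Fact p.Prime] (A : Finset (ZMod p)) (hA : p ^ 2 < A.card ^ 3) :
    ∃ ξ ∈ A, ∀ r : ZMod p, ∃ a ∈ A, ∃ b ∈ A, ∃ c ∈ A, ∃ d ∈ A, r = a + ξ * b + c + ξ * d := by
  obtain ⟨ξ, hξ, h⟩ := exists_xi A hA
  refine ⟨ξ, hξ, fun r => ?_⟩
  set S := (A ×ˢ A).image fun q => q.1 + ξ * q.2
  have : ¬ Disjoint S (S.image fun s => r - s) := by
    intro hd
    have h1 := card_le_univ (S ∪ S.image fun s => r - s)
    rw [card_union_of_disjoint hd, card_image_of_injective _ sub_right_injective, ZMod.card] at h1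
    omega
  obtain ⟨s, h1, h2⟩ := not_disjoint_iff.mp this
  obtain ⟨s', h3, rfl⟩ := mem_image.mp h2
  obtain ⟨q, hq, e1⟩ := mem_image.mp h1
  obtain ⟨q', hq', e2⟩ := mem_image.mp h3
  rw [mem_product] at hq hq'
  exact ⟨q.1, hq.1, q.2, hq.2, q'.1, hq'.1, q'.2, hq'.2, by linear_combination -e1 - e2⟩

lemma pi_low (m : ℕ) : 2 ^ m ≤ m + 1 + m * (Nat.primesLE (2 ^ m)).card := by
  have h1 := Chebyshev.two_pow_le_mul_lcmUpto (2 ^ m)
  have h2 : Nat.lcmUpto (2 ^ m) ≤ (2 ^ m) ^ (Nat.primesLE (2 ^ m)).card := by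
    rw [Nat.lcmUpto_eq_prod_pow_log]
    exact prod_le_pow_card _ _ _ fun p _ => Nat.pow_log_le_self _ (by positivity)
  have h3 : 2 ^ m + 1 ≤ 2 ^ (m + 1) := by have := Nat.one_le_two_pow (n := m); omega
  have h4 := h1.trans (Nat.mul_le_mul h3 h2)
  rw [← pow_mul, ← pow_add] at h4
  exact (Nat.pow_le_pow_iff_right (by norm_num)).mp h4

lemma num1 {l : ℕ} (hl : 6 ≤ l) : 8 * l + 8 ≤ 2 ^ l := by
  induction l, hl using Nat.le_induction with
  | base => norm_num
  | succ l _ ih => rw [pow_succ]; omega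

def Cov (x Q : ℕ) : Prop :=
  ∀ r : ℕ, ∃ a b c d : ℕ, a ∣ Q ∧ b ∣ Q ∧ c ∣ Q ∧ d ∣ Q ∧ a + b + c + d ≡ r [MOD x]

lemma card_dvd {P : Finset ℕ} (hP : ∀ p ∈ P, p.Prime) {m : ℕ} (hm : 0 < m) :
    2 ^ (P.filter (· ∣ m)).card ≤ m := by
  refine le_trans (pow_card_le_prod _ id 2 fun p hp => (hP p (mem_filter.mp hp).1).two_le)
    (Nat.le_of_dvd hm (prod_primes_dvd _ (fun p hp => (hP p (mem_filter.mp hp).1).prime)
      fun p hp => (mem_filter.mp hp).2))

theorem level {l : ℕ} (hl : 6 ≤ l) :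
    ∃ x Q : ℕ, 2 ^ (2 * 2 ^ l) ≤ x ∧ 0 < Q ∧ Q ≤ 2 ^ (12 * l * 2 ^ l) ∧ Cov x Q := by
  classical
  have n1 := num1 hl
  obtain ⟨t, ht⟩ : ∃ t, t = 2 ^ l := ⟨_, rfl⟩
  rw [← ht] at n1 ⊢
  have e2 : 2 ^ (2 * l) = t * t := by rw [ht, two_mul, pow_add]
  obtain ⟨P, hP1, hP2⟩ := exists_subset_card_eq (s := Nat.primesLE (2 ^ (2 * l))) (n := 3 * t) (by
    have := pi_low (2 * l)
    by_contra hc
    push Not at hc
    rw [e2] at this hc
    nlinarith)
  have hPp : ∀ p ∈ P, p.Prime := fun p hp => (Nat.mem_primesLE.mp (hP1 hp)).2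
  set M := ∏ p ∈ P, p with hM
  have hM0 : 0 < M := prod_pos fun p hp => (hPp p hp).pos
  have hM1 : M ≤ 2 ^ (6 * l * t) := by
    refine (prod_le_pow_card _ _ _ fun p hp => (Nat.mem_primesLE.mp (hP1 hp)).1).trans ?_
    rw [hP2, ← pow_mul]; exact le_of_eq (by congr 1; ring)
  set D := P.powerset.image fun S => ∏ p ∈ S, p with hD
  have hDc : D.card = 2 ^ (3 * t) := by
    rw [hD, card_image_of_injOn, card_powerset, hP2]
    intro S hS T hT h
    have a1 := Nat.primeFactors_prod (s := S) fun p hp => hPp p (mem_powerset.mp hS hp)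
    have a2 := Nat.primeFactors_prod (s := T) fun p hp => hPp p (mem_powerset.mp hT hp)
    simp only at h
    rw [← a1, ← a2, h]
  have hDd : ∀ d ∈ D, d ∣ M := fun d hd => by
    obtain ⟨S, hS, rfl⟩ := mem_image.mp hd
    exact prod_dvd_prod_of_subset _ _ _ (mem_powerset.mp hS)
  set W := (Nat.primesLE (2 ^ (4 * t))).filter (2 ^ (2 * t) ≤ ·) with hW
  have hWp : ∀ p ∈ W, p.Prime := fun p hp => (Nat.mem_primesLE.mp (mem_filter.mp hp).1).2
  have hWc : 6 * l * t * 2 ^ (3 * t) < W.card := by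
    have a1 := pi_low (4 * t)
    have a2 : (Nat.primesLE (2 ^ (4 * t))).card ≤ W.card + 2 ^ (2 * t) := by
      refine le_trans (card_le_card (t := W ∪ range (2 ^ (2 * t))) fun p hp => ?_)
        ((card_union_le _ _).trans (by rw [card_range]))
      by_cases h : 2 ^ (2 * t) ≤ p
      · exact mem_union_left _ (mem_filter.mpr ⟨hp, h⟩)
      · exact mem_union_right _ (mem_range.mpr (not_le.mp h))
    have a3 : 32 * t ^ 3 ≤ 2 ^ t := by
      calc 32 * t ^ 3 = 2 ^ (3 * l + 5) := by rw [ht]; ring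
        _ ≤ _ := Nat.pow_le_pow_right (by norm_num) (by omega)
    have a4 : 2 ^ (4 * t) = 2 ^ t * 2 ^ (3 * t) := by ring
    have a5 : 2 ^ (2 * t) ≤ 2 ^ (3 * t) := Nat.pow_le_pow_right (by norm_num) (by omega)
    have a6 : 1 ≤ 2 ^ (3 * t) := Nat.one_le_two_pow
    by_contra hc
    push Not at hc
    generalize 2 ^ (3 * t) = Y at *
    have a7 : (Nat.primesLE (2 ^ (4 * t))).card ≤ (6 * l * t + 1) * Y := by nlinarith
    have a8 : 32 * t ^ 3 * Y ≤ 4 * t + 1 + 4 * t * ((6 * l * t + 1) * Y) := by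
      calc _ ≤ 2 ^ t * Y := by gcongr
        _ ≤ _ := by rw [← a4]; exact a1.trans (by gcongr)
    have a9 : 4 * t + 1 + 4 * t * ((6 * l * t + 1) * Y) ≤ (4 * t + 1 + 4 * t * (t * t + 1)) * Y := by
      have b1 : 6 * l * t ≤ t * t := Nat.mul_le_mul_right _ (by omega)
      calc _ ≤ (4 * t + 1) * Y + 4 * t * ((t * t + 1) * Y) :=
            Nat.add_le_add (Nat.le_mul_of_pos_right _ a6) (by gcongr)
        _ = _ := by ring
    have a10 := Nat.le_of_mul_le_mul_right (a8.trans a9) a6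
    have : 1 ≤ t := by omega
    nlinarith
  let col : ℕ → ℝ := fun x => ∑ d ∈ D, ∑ d' ∈ D, if d ≠ d' ∧ d ≡ d' [MOD x] then (1 : ℝ) else 0
  have hcol : ∑ x ∈ W, col x ≤ ∑ x ∈ W, (D.card : ℝ) := by
    simp only [col]
    rw [sum_comm]
    calc _ ≤ ∑ d ∈ D, ∑ d' ∈ D, ((6 * l * t : ℕ) : ℝ) := by
          refine sum_le_sum fun d hd => ?_
          rw [sum_comm]
          refine sum_le_sum fun d' hd' => ?_
          rw [sum_boole, Nat.cast_le]
          by_cases h : d = d'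
          · simp [h]
          have b1 := Nat.le_of_dvd hM0 (hDd d hd)
          have b2 := Nat.le_of_dvd hM0 (hDd d' hd')
          have b3 := card_dvd hWp (m := ((d' : ℤ) - d).natAbs) (by omega)
          have b4 : ((d' : ℤ) - d).natAbs ≤ 2 ^ (6 * l * t) := by omega
          refine le_trans (card_le_card fun x hx => ?_)
            ((Nat.pow_le_pow_iff_right (by norm_num)).mp (b3.trans b4))
          rw [mem_filter] at hx ⊢
          exact ⟨hx.1, Int.natCast_dvd.mp hx.2.2.dvd⟩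
      _ ≤ _ := by
          simp only [sum_const, nsmul_eq_mul]
          have : ((6 * l * t * 2 ^ (3 * t) : ℕ) : ℝ) ≤ W.card := by exact_mod_cast hWc.le
          rw [← hDc] at this
          push_cast at this ⊢
          have h0 : (0 : ℝ) ≤ D.card := by positivity
          nlinarith
  obtain ⟨x, hx, hx2⟩ := exists_le_of_sum_le (card_pos.mp (by omega)) hcol
  have : Fact x.Prime := ⟨hWp x hx⟩
  set A := D.image fun d : ℕ => (d : ZMod x) with hA
  have hAc : 2 ^ (3 * t) ≤ 2 * A.card := by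
    have h1 := cs D (fun d : ℕ => (d : ZMod x)) A fun y hy => mem_image_of_mem _ hy
    have h2 : ∑ y ∈ D, ∑ y' ∈ D, (if (y : ZMod x) = (y' : ZMod x) then (1 : ℝ) else 0) ≤
        D.card + col x := by
      rw [card_eq_sum_ones, Nat.cast_sum, ← sum_add_distrib]
      refine sum_le_sum fun d hd => ?_
      have : ((1 : ℕ) : ℝ) = ∑ d' ∈ D, if d = d' then (1 : ℝ) else 0 := by simp [hd]
      rw [this, ← sum_add_distrib]
      refine sum_le_sum fun d' _ => ?_
      simp only [ZMod.natCast_eq_natCast_iff]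
      by_cases h : d = d'
      · subst h; simp [Nat.ModEq.refl]
      · by_cases h' : d ≡ d' [MOD x] <;> simp [h, h']
    have h3 : (0 : ℝ) < D.card := by rw [hDc]; positivity
    have h4 : (D.card : ℝ) * D.card ≤ (2 * A.card) * D.card := by
      have := mul_le_mul_of_nonneg_left (h2.trans (add_le_add_right hx2 _))
        (Nat.cast_nonneg (α := ℝ) A.card)
      nlinarith
    have h5 := le_of_mul_le_mul_right h4 h3
    rw [← hDc]; exact_mod_cast h5
  obtain ⟨ξ, hξ, hc⟩ := cover A (by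
    have h1 := (Nat.mem_primesLE.mp (mem_filter.mp hx).1).1
    have h2 := Nat.pow_le_pow_left h1 2
    have h3 := Nat.pow_le_pow_left hAc 3
    have h4 : 8 * (2 ^ (4 * t)) ^ 2 < (2 ^ (3 * t)) ^ 3 := by
      rw [← pow_mul, ← pow_mul, show 8 = 2 ^ 3 by norm_num, ← pow_add]
      exact Nat.pow_lt_pow_right (by norm_num) (by omega)
    rw [mul_pow] at h3
    omega)
  refine ⟨x, M * M, (mem_filter.mp hx).2, by positivity, ?_, fun r => ?_⟩
  · calc M * M ≤ 2 ^ (6 * l * t) * 2 ^ (6 * l * t) := by gcongr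
      _ = _ := by rw [← pow_add]; congr 1; ring
  · obtain ⟨a, ha, b, hb, c, hc', d, hd, e⟩ := hc r
    obtain ⟨ξ', h0, rfl⟩ := mem_image.mp hξ
    obtain ⟨a', h1, rfl⟩ := mem_image.mp ha
    obtain ⟨b', h2, rfl⟩ := mem_image.mp hb
    obtain ⟨c', h3, rfl⟩ := mem_image.mp hc'
    obtain ⟨d', h4, rfl⟩ := mem_image.mp hd
    refine ⟨a', ξ' * b', c', ξ' * d', (hDd _ h1).mul_right _, mul_dvd_mul (hDd _ h0) (hDd _ h2),
      (hDd _ h3).mul_right _, mul_dvd_mul (hDd _ h0) (hDd _ h4), ?_⟩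
    rw [← ZMod.natCast_eq_natCast_iff, e]; push_cast; ring

end Vale.Agent.P012
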