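import Vale.Agent.P012.Cover

open Finset

namespace Vale.Agent.P012

theorem level2 {l : ℕ} (hl : 6 ≤ l) :
    ∃ (Q : ℕ) (G : Finset ℕ), 0 < Q ∧ Q ≤ 2 ^ (12 * l * 2 ^ l) ∧ 2 ^ (3 * 2 ^ l) ≤ G.card ∧
      ∀ y ∈ G, y ≤ 2 ^ (4 * 2 ^ l) ∧ Cov y Q := by
  classical
  have n1 := num1 hl
  obtain ⟨t, ht⟩ : ∃ t, t = 2 ^ l := ⟨_, rfl⟩
  rw [← ht] at n1 ⊢
  have e2 : 2 ^ (2 * l) = t * t := by rw [ht, two_mul, pow_add]
  obtain ⟨P, hP1, hP2⟩ := exists_subset_card_eq (s := Nat.primesLE (2 ^ (2 * l))) (n := 3 * t) (by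
    have := pi_low (2 * l)
    by_contra hc
    push Not at hc
    rw [e2] at this hc
    nlinarith)
  have hPp : ∀ p ∈ P, p.Prime := fun p hp => (Nat.mem_primesLE.mp (hP1 hp)).2
  set M := ∏ p ∈ P, p with hM
  have hM0 : 0 < M := prod_pos fun p hp => (hPp p hp).pos
  have hM1 : M ≤ 2 ^ (6 * l * t) := by
    refine (prod_le_pow_card _ _ _ fun p hp => (Nat.mem_primesLE.mp (hP1 hp)).1).trans ?_
    rw [hP2, ← pow_mul]; exact le_of_eq (by congr 1; ring)
  set D := P.powerset.image fun S => ∏ p ∈ S, p with hD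
  have hDc : D.card = 2 ^ (3 * t) := by
    rw [hD, card_image_of_injOn, card_powerset, hP2]
    intro S hS T hT h
    have a1 := Nat.primeFactors_prod (s := S) fun p hp => hPp p (mem_powerset.mp hS hp)
    have a2 := Nat.primeFactors_prod (s := T) fun p hp => hPp p (mem_powerset.mp hT hp)
    simp only at h
    rw [← a1, ← a2, h]
  have hDd : ∀ d ∈ D, d ∣ M := fun d hd => by
    obtain ⟨S, hS, rfl⟩ := mem_image.mp hd
    exact prod_dvd_prod_of_subset _ _ _ (mem_powerset.mp hS)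
  set W := (Nat.primesLE (2 ^ (4 * t))).filter (2 ^ (2 * t) ≤ ·) with hW
  have hWp : ∀ p ∈ W, p.Prime := fun p hp => (Nat.mem_primesLE.mp (mem_filter.mp hp).1).2
  have hWc : 6 * l * t * 2 ^ (3 * t) < W.card := by
    have a1 := pi_low (4 * t)
    have a2 : (Nat.primesLE (2 ^ (4 * t))).card ≤ W.card + 2 ^ (2 * t) := by
      refine le_trans (card_le_card (t := W ∪ range (2 ^ (2 * t))) fun p hp => ?_)
        ((card_union_le _ _).trans (by rw [card_range]))
      by_cases h : 2 ^ (2 * t) ≤ p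
      · exact mem_union_left _ (mem_filter.mpr ⟨hp, h⟩)
      · exact mem_union_right _ (mem_range.mpr (not_le.mp h))
    have a3 : 32 * t ^ 3 ≤ 2 ^ t := by
      calc 32 * t ^ 3 = 2 ^ (3 * l + 5) := by rw [ht]; ring
        _ ≤ _ := Nat.pow_le_pow_right (by norm_num) (by omega)
    have a4 : 2 ^ (4 * t) = 2 ^ t * 2 ^ (3 * t) := by ring
    have a5 : 2 ^ (2 * t) ≤ 2 ^ (3 * t) := Nat.pow_le_pow_right (by norm_num) (by omega)
    have a6 : 1 ≤ 2 ^ (3 * t) := Nat.one_le_two_pow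
    by_contra hc
    push Not at hc
    generalize 2 ^ (3 * t) = Y at *
    have a7 : (Nat.primesLE (2 ^ (4 * t))).card ≤ (6 * l * t + 1) * Y := by nlinarith
    have a8 : 32 * t ^ 3 * Y ≤ 4 * t + 1 + 4 * t * ((6 * l * t + 1) * Y) := by
      calc _ ≤ 2 ^ t * Y := by gcongr
        _ ≤ _ := by rw [← a4]; exact a1.trans (by gcongr)
    have a9 : 4 * t + 1 + 4 * t * ((6 * l * t + 1) * Y) ≤ (4 * t + 1 + 4 * t * (t * t + 1)) * Y := by
      have b1 : 6 * l * t ≤ t * t := Nat.mul_le_mul_right _ (by omega)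
      calc _ ≤ (4 * t + 1) * Y + 4 * t * ((t * t + 1) * Y) :=
            Nat.add_le_add (Nat.le_mul_of_pos_right _ a6) (by gcongr)
        _ = _ := by ring
    have a10 := Nat.le_of_mul_le_mul_right (a8.trans a9) a6
    have : 1 ≤ t := by omega
    nlinarith
  let col : ℕ → ℝ := fun x => ∑ d ∈ D, ∑ d' ∈ D, if d ≠ d' ∧ d ≡ d' [MOD x] then (1 : ℝ) else 0
  have hcol : ∑ x ∈ W, col x ≤ ∑ x ∈ W, (D.card : ℝ) := by
    simp only [col]
    rw [sum_comm]
    calc _ ≤ ∑ d ∈ D, ∑ d' ∈ D, ((6 * l * t : ℕ) : ℝ) := by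
          refine sum_le_sum fun d hd => ?_
          rw [sum_comm]
          refine sum_le_sum fun d' hd' => ?_
          rw [sum_boole, Nat.cast_le]
          by_cases h : d = d'
          · simp [h]
          have b1 := Nat.le_of_dvd hM0 (hDd d hd)
          have b2 := Nat.le_of_dvd hM0 (hDd d' hd')
          have b3 := card_dvd hWp (m := ((d' : ℤ) - d).natAbs) (by omega)
          have b4 : ((d' : ℤ) - d).natAbs ≤ 2 ^ (6 * l * t) := by omega
          refine le_trans (card_le_card fun x hx => ?_)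
            ((Nat.pow_le_pow_iff_right (by norm_num)).mp (b3.trans b4))
          rw [mem_filter] at hx ⊢
          exact ⟨hx.1, Int.natCast_dvd.mp hx.2.2.dvd⟩
      _ ≤ _ := by
          simp only [sum_const, nsmul_eq_mul]
          have : ((6 * l * t * 2 ^ (3 * t) : ℕ) : ℝ) ≤ W.card := by exact_mod_cast hWc.le
          rw [← hDc] at this
          push_cast at this ⊢
          have h0 : (0 : ℝ) ≤ D.card := by positivity
          nlinarith
  have h3 : (0 : ℝ) < D.card := by rw [hDc]; positivity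
  have hG : W.card ≤ 2 * (W.filter fun x => col x ≤ 2 * D.card).card := by
    have c0 : ∀ x, 0 ≤ col x := fun x => sum_nonneg fun _ _ => sum_nonneg fun _ _ => by
      split_ifs <;> norm_num
    have c1 : ∑ x ∈ W.filter (fun x => ¬ col x ≤ 2 * D.card), (2 * D.card : ℝ) ≤ ∑ x ∈ W, col x :=
      (sum_le_sum fun x hx => (not_le.mp (mem_filter.mp hx).2).le).trans
        (sum_le_sum_of_subset_of_nonneg (filter_subset _ _) fun x _ _ => c0 x)
    have c2 := c1.trans hcol
    rw [sum_const, sum_const, nsmul_eq_mul, nsmul_eq_mul, ← mul_assoc] at c2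
    have c3 : (W.filter fun x => ¬ col x ≤ 2 * D.card).card * 2 ≤ W.card := by
      exact_mod_cast le_of_mul_le_mul_right c2 h3
    have c4 := card_filter_add_card_filter_not (s := W) fun x => col x ≤ 2 * D.card
    omega
  refine ⟨M * M, W.filter fun x => col x ≤ 2 * D.card, by positivity, ?_, ?_, fun x hx' => ?_⟩
  · calc M * M ≤ 2 ^ (6 * l * t) * 2 ^ (6 * l * t) := by gcongr
      _ = _ := by rw [← pow_add]; congr 1; ring
  · have : 2 * 2 ^ (3 * t) ≤ 6 * l * t * 2 ^ (3 * t) :=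
      Nat.mul_le_mul_right _ (by nlinarith)
    omega
  obtain ⟨hx, hx2⟩ := mem_filter.mp hx'
  have : Fact x.Prime := ⟨hWp x hx⟩
  set A := D.image fun d : ℕ => (d : ZMod x) with hA
  have hAc : 2 ^ (3 * t) ≤ 4 * A.card := by
    have h1 := cs D (fun d : ℕ => (d : ZMod x)) A fun y hy => mem_image_of_mem _ hy
    have h2 : ∑ y ∈ D, ∑ y' ∈ D, (if (y : ZMod x) = (y' : ZMod x) then (1 : ℝ) else 0) ≤
        D.card + col x := by
      rw [card_eq_sum_ones, Nat.cast_sum, ← sum_add_distrib]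
      refine sum_le_sum fun d hd => ?_
      have : ((1 : ℕ) : ℝ) = ∑ d' ∈ D, if d = d' then (1 : ℝ) else 0 := by simp [hd]
      rw [this, ← sum_add_distrib]
      refine sum_le_sum fun d' _ => ?_
      simp only [ZMod.natCast_eq_natCast_iff]
      by_cases h : d = d'
      · subst h; simp [Nat.ModEq.refl]
      · by_cases h' : d ≡ d' [MOD x] <;> simp [h, h']
    have h4 : (D.card : ℝ) * D.card ≤ (4 * A.card) * D.card := by
      have := mul_le_mul_of_nonneg_left (h2.trans (add_le_add_right hx2 _))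
        (Nat.cast_nonneg (α := ℝ) A.card)
      have h6 := mul_nonneg (Nat.cast_nonneg (α := ℝ) A.card) h3.le
      nlinarith
    have h5 := le_of_mul_le_mul_right h4 h3
    rw [← hDc]; exact_mod_cast h5
  obtain ⟨ξ, hξ, hc⟩ := cover A (by
    have h1 := (Nat.mem_primesLE.mp (mem_filter.mp hx).1).1
    have h2 := Nat.pow_le_pow_left h1 2
    have h3 := Nat.pow_le_pow_left hAc 3
    have h4 : 64 * (2 ^ (4 * t)) ^ 2 < (2 ^ (3 * t)) ^ 3 := by
      rw [← pow_mul, ← pow_mul, show 64 = 2 ^ 6 by norm_num, ← pow_add]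
      exact Nat.pow_lt_pow_right (by norm_num) (by omega)
    rw [mul_pow] at h3
    omega)
  refine ⟨(Nat.mem_primesLE.mp (mem_filter.mp hx).1).1, fun r => ?_⟩
  · obtain ⟨a, ha, b, hb, c, hc', d, hd, e⟩ := hc r
    obtain ⟨ξ', h0, rfl⟩ := mem_image.mp hξ
    obtain ⟨a', h1, rfl⟩ := mem_image.mp ha
    obtain ⟨b', h2, rfl⟩ := mem_image.mp hb
    obtain ⟨c', h3, rfl⟩ := mem_image.mp hc'
    obtain ⟨d', h4, rfl⟩ := mem_image.mp hd
    refine ⟨a', ξ' * b', c', ξ' * d', (hDd _ h1).mul_right _, mul_dvd_mul (hDd _ h0) (hDd _ h2),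
      (hDd _ h3).mul_right _, mul_dvd_mul (hDd _ h0) (hDd _ h4), ?_⟩
    rw [← ZMod.natCast_eq_natCast_iff, e]; push_cast; ring

end Vale.Agent.P012
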