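import Mathlib

namespace Vale.Agent.P012

def rs (L : Multiset ℕ) : ℚ := (L.map fun n : ℕ => (1 / n : ℚ)).sum

lemma rs_cons (n : ℕ) (L : Multiset ℕ) : rs (n ::ₘ L) = 1 / n + rs L := by simp [rs]

lemma rs_add (L L' : Multiset ℕ) : rs (L + L') = rs L + rs L' := by simp [rs]

lemma rs_nonneg (L : Multiset ℕ) : 0 ≤ rs L :=
  Multiset.sum_nonneg fun x hx => by
    obtain ⟨n, _, rfl⟩ := Multiset.mem_map.mp hx
    positivity

lemma greedy {R : ℕ} (hR : 0 < R) (g : ℕ) : ∀ a b w : ℕ, 0 < b → a * w < b →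
    ∃ (L : Multiset ℕ) (a' b' : ℕ), L.card ≤ g ∧ (∀ n ∈ L, 0 < n) ∧ 0 < b' ∧
      (a / b : ℚ) = rs L + a' / b' ∧ b' ≤ b * R ^ g ∧
      (a' * R ≤ b' ∨ a' * (fun w => w * (w + 1))^[g] w < b') := by
  induction g with
  | zero => exact fun a b w hb h => ⟨0, a, b, by simp, by simp, hb, by simp [rs], by simp, Or.inr h⟩
  | succ g ih =>
    intro a b w hb h
    by_cases h0 : a * R ≤ b
    · exact ⟨0, a, b, by simp, by simp, hb, by simp [rs],
        Nat.le_mul_of_pos_right _ (by positivity), Or.inl h0⟩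
    have ha : 0 < a := Nat.pos_of_ne_zero fun e => by simp [e] at h0
    obtain ⟨m, hm⟩ : ∃ m, m = (b - 1) / a := ⟨_, rfl⟩
    have h1 : a * m ≤ b - 1 := hm ▸ Nat.mul_div_le _ _
    have h2 : b - 1 < a * (m + 1) := hm ▸ Nat.lt_mul_div_succ _ ha
    have h3 : m < R := Nat.lt_of_mul_lt_mul_left (a := a) (by omega)
    have h4 : w < m + 1 := Nat.lt_of_mul_lt_mul_left (a := a) (by omega)
    obtain ⟨c, hc⟩ : ∃ c, a * (m + 1) = b + c := ⟨a * (m + 1) - b, by omega⟩
    have h5 : c ≤ a := by rw [mul_add] at hc; omega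
    have h6 : c * (w * (w + 1)) < b * (m + 1) := by
      calc c * (w * (w + 1)) ≤ a * (m * (m + 1)) := by gcongr <;> omega
        _ = (a * m) * (m + 1) := by ring
        _ < _ := Nat.mul_lt_mul_of_pos_right (by omega) (by omega)
    obtain ⟨L, a', b', k1, k2, k3, k4, k5, k6⟩ := ih c (b * (m + 1)) _ (by positivity) h6
    refine ⟨(m + 1) ::ₘ L, a', b', by simpa using k1, ?_, k3, ?_, ?_, k6⟩
    · intro n hn
      rcases Multiset.mem_cons.mp hn with rfl | hn
      · omega
      · exact k2 n hn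
    · rw [rs_cons, add_assoc, ← k4]
      have : (a : ℚ) * (m + 1) = b + c := by exact_mod_cast hc
      have hb' : (b : ℚ) ≠ 0 := by positivity
      push_cast
      field_simp
      linarith
    · calc b' ≤ b * (m + 1) * R ^ g := k5
        _ ≤ b * R * R ^ g := by gcongr; omega
        _ = _ := by ring

lemma iter_big (g : ℕ) : 2 ^ 2 ^ g ≤ (fun w => w * (w + 1))^[g + 1] 1 := by
  induction g with
  | zero => simp
  | succ g ih =>
    rw [Function.iterate_succ_apply', pow_succ, pow_mul, sq]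
    exact Nat.mul_le_mul ih (ih.trans (Nat.le_succ _))

def T (k : ℕ) (q : ℚ) : Set (Multiset ℕ) := {L | L.card = k ∧ (∀ n ∈ L, 0 < n) ∧ rs L = q}

lemma T_fin (k : ℕ) : ∀ q : ℚ, (T k q).Finite := by
  induction k with
  | zero =>
    exact fun q => (Set.finite_singleton 0).subset fun L hL => Multiset.card_eq_zero.mp hL.1
  | succ k ih =>
    intro q
    refine ((Set.finite_le_nat ⌈(k + 1 : ℚ) / q⌉₊).biUnion fun n _ =>
      (ih (q - 1 / n)).image (n ::ₘ ·)).subset fun L ⟨h1, h2, h3⟩ => ?_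
    have hne : L ≠ 0 := fun e => by simp [e] at h1
    obtain ⟨n, hn, hmin⟩ := L.toFinset.exists_min_image id (Multiset.toFinset_nonempty.mpr hne)
    rw [Multiset.mem_toFinset] at hn
    have hn0 : (0 : ℚ) < n := by exact_mod_cast h2 n hn
    have b1 : q ≤ (k + 1 : ℚ) * (1 / n) := by
      have := Multiset.sum_le_card_nsmul (L.map fun n : ℕ => (1 / n : ℚ)) (1 / n) fun x hx => by
        obtain ⟨y, hy, rfl⟩ := Multiset.mem_map.mp hx
        exact one_div_le_one_div_of_le hn0
          (by exact_mod_cast hmin y (Multiset.mem_toFinset.mpr hy))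
      rw [Multiset.card_map, h1, nsmul_eq_mul] at this
      rw [← h3]; exact_mod_cast this
    obtain ⟨L', rfl⟩ := Multiset.exists_cons_of_mem hn
    rw [rs_cons] at h3
    have b2 : 0 < q := by have := rs_nonneg L'; have : (0 : ℚ) < 1 / n := by positivity
                          linarith
    refine Set.mem_biUnion (x := n) ?_ ⟨L', ⟨by simpa using h1,
      fun y hy => h2 y (Multiset.mem_cons_of_mem hy), by linarith⟩, rfl⟩
    have : (n : ℚ) ≤ (k + 1 : ℚ) / q := by
      rw [le_div_iff₀ b2]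
      rw [mul_one_div, le_div_iff₀ hn0] at b1
      linarith
    exact_mod_cast this.trans (Nat.le_ceil _)

theorem distinct (L : Multiset ℕ) (h : ∀ n ∈ L, 0 < n) (hq : rs L < 1) :
    ∃ S : Finset ℕ, (∀ n ∈ S, 2 ≤ n) ∧ ∑ n ∈ S, (1 / n : ℚ) = rs L ∧ S.card = L.card := by
  obtain ⟨L', ⟨h1, h2, h3⟩, hmax⟩ :=
    Set.exists_max_image (T L.card (rs L)) Multiset.sum (T_fin _ _) ⟨L, rfl, h, rfl⟩
  have hnd : L'.Nodup := by
    by_contra hc
    rw [Multiset.nodup_iff_ne_cons_cons] at hc
    push Not at hc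
    obtain ⟨n, U, rfl⟩ := hc
    have hn : 0 < n := h2 n (by simp)
    have hU := rs_nonneg U
    rw [rs_cons, rs_cons] at h3
    have h4 : 3 ≤ n := by
      by_contra h5
      have : n = 1 ∨ n = 2 := by omega
      rcases this with rfl | rfl <;> norm_num at h3 <;> linarith
    have key : ∀ x y : ℕ, 0 < x → 0 < y → (1 / x + 1 / y : ℚ) = 1 / n + 1 / n → x + y ≤ n + n := by
      intro x y hx hy e
      have := hmax (x ::ₘ y ::ₘ U) ⟨by simpa using h1, fun z hz => by
        simp only [Multiset.mem_cons] at hz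
        rcases hz with rfl | rfl | hz
        · exact hx
        · exact hy
        · exact h2 z (by simp [hz]), by rw [rs_cons, rs_cons]; linarith⟩
      simp only [Multiset.sum_cons] at this
      omega
    obtain ⟨m, rfl | rfl⟩ := Nat.even_or_odd' n
    · have hm : (0 : ℚ) < m := by exact_mod_cast (by omega : 0 < m)
      have := key (m + 1) (m * (m + 1)) (by omega) (Nat.mul_pos (by omega) (by omega))
        (by push_cast; field_simp; ring)
      have : 2 ≤ m := by omega
      nlinarith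
    · have := key (m + 1) ((m + 1) * (2 * m + 1)) (by omega) (by positivity)
        (by push_cast; field_simp; ring)
      have : 1 ≤ m := by omega
      nlinarith
  refine ⟨⟨L', hnd⟩, fun n hn => ?_, h3, h1⟩
  obtain ⟨U, rfl⟩ := Multiset.exists_cons_of_mem (show n ∈ L' from hn)
  have hn : 0 < n := h2 n (by simp)
  have hU := rs_nonneg U
  rw [rs_cons] at h3
  by_contra h5
  obtain rfl : n = 1 := by omega
  norm_num at h3; linarith

end Vale.Agent.P012
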