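import Vale.Agent.P012.Greedy

namespace Vale.Agent.P012

lemma f_mono (g : ℕ) : Monotone ((fun w : ℕ => w * (w + 1))^[g]) :=
  Monotone.iterate (fun x y h => Nat.mul_le_mul h (Nat.succ_le_succ h)) g

lemma greedy2 (R : ℕ) (g : ℕ) : ∀ a b w : ℕ, 0 < b → 0 < w → a * w < b →
    ∃ (L : Multiset ℕ) (a' b' : ℕ), L.card ≤ g ∧ (∀ n ∈ L, 0 < n) ∧ 0 < b' ∧
      (a / b : ℚ) = rs L + a' / b' ∧ (b' = b ∨ b' * w ≤ b * R ^ 2) ∧
      (a' * R ≤ b' ∨ a' * (fun w => w * (w + 1))^[g] w < b') := by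
  induction g with
  | zero =>
    exact fun a b w hb _ h => ⟨0, a, b, by simp, by simp, hb, by simp [rs], Or.inl rfl, Or.inr h⟩
  | succ g ih =>
    intro a b w hb hw h
    by_cases h0 : a * R ≤ b
    · exact ⟨0, a, b, by simp, by simp, hb, by simp [rs], Or.inl rfl, Or.inl h0⟩
    have ha : 0 < a := Nat.pos_of_ne_zero fun e => by simp [e] at h0
    obtain ⟨m, hm⟩ : ∃ m, m = (b - 1) / a := ⟨_, rfl⟩
    have h1 : a * m ≤ b - 1 := hm ▸ Nat.mul_div_le _ _
    have h2 : b - 1 < a * (m + 1) := hm ▸ Nat.lt_mul_div_succ _ ha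
    have h3 : m < R := Nat.lt_of_mul_lt_mul_left (a := a) (by omega)
    have h4 : w < m + 1 := Nat.lt_of_mul_lt_mul_left (a := a) (by omega)
    obtain ⟨c, hc⟩ : ∃ c, a * (m + 1) = b + c := ⟨a * (m + 1) - b, by omega⟩
    have h5 : c ≤ a := by rw [mul_add] at hc; omega
    have h6 : c * (m * (m + 1)) < b * (m + 1) := by
      calc c * (m * (m + 1)) ≤ a * (m * (m + 1)) := by gcongr
        _ = (a * m) * (m + 1) := by ring
        _ < _ := Nat.mul_lt_mul_of_pos_right (by omega) (by omega)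
    obtain ⟨L, a', b', k1, k2, k3, k4, k5, k6⟩ := ih c (b * (m + 1)) _ (by positivity)
      (Nat.mul_pos (by omega) (by omega)) h6
    refine ⟨(m + 1) ::ₘ L, a', b', by simpa using k1, ?_, k3, ?_, Or.inr ?_, k6.imp id fun h7 => ?_⟩
    · intro n hn
      rcases Multiset.mem_cons.mp hn with rfl | hn
      · omega
      · exact k2 n hn
    · rw [rs_cons, add_assoc, ← k4]
      have : (a : ℚ) * (m + 1) = b + c := by exact_mod_cast hc
      have hb' : (b : ℚ) ≠ 0 := by positivity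
      push_cast
      field_simp
      linarith
    · rcases k5 with rfl | k5
      · calc b * (m + 1) * w ≤ b * R * R := by gcongr <;> omega
          _ = _ := by ring
      · have : b' * m * (m + 1) ≤ b * R ^ 2 * (m + 1) := by linarith
        exact le_trans (Nat.mul_le_mul_left _ (by omega)) (Nat.le_of_mul_le_mul_right this (by omega))
    · refine lt_of_le_of_lt (Nat.mul_le_mul_left _ ?_) h7
      rw [Function.iterate_succ_apply]
      exact f_mono g (Nat.mul_le_mul (by omega) (by omega))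

def UF (k : ℕ) (q : ℚ) : Prop := ∃ L : Multiset ℕ, L.card ≤ k ∧ (∀ n ∈ L, 0 < n) ∧ rs L = q

lemma UF.mono {k k' : ℕ} {q : ℚ} (h : UF k q) (hk : k ≤ k') : UF k' q := by
  obtain ⟨L, h1, h2, h3⟩ := h
  exact ⟨L, h1.trans hk, h2, h3⟩

lemma UF.add {k k' : ℕ} {q q' : ℚ} (h : UF k q) (h' : UF k' q') : UF (k + k') (q + q') := by
  obtain ⟨L, h1, h2, h3⟩ := h
  obtain ⟨L', k1, k2, k3⟩ := h'
  refine ⟨L + L', by rw [Multiset.card_add]; omega, fun n hn => ?_, by rw [rs_add, h3, k3]⟩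
  exact (Multiset.mem_add.mp hn).elim (h2 n) (k2 n)

lemma UF.div {k : ℕ} {q : ℚ} (h : UF k q) {m : ℕ} (hm : 0 < m) : UF k (q / m) := by
  obtain ⟨L, h1, h2, rfl⟩ := h
  refine ⟨L.map (· * m), by simpa using h1, fun n hn => ?_, ?_⟩
  · obtain ⟨y, hy, rfl⟩ := Multiset.mem_map.mp hn
    exact Nat.mul_pos (h2 y hy) hm
  · clear h1 h2
    induction L using Multiset.induction_on with
    | empty => simp [rs]
    | cons d L ih => rw [Multiset.map_cons, rs_cons, rs_cons, ih, add_div, div_div, Nat.cast_mul]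

lemma UF.mul {k k' : ℕ} {q q' : ℚ} (h : UF k q) (h' : UF k' q') : UF (k * k') (q * q') := by
  obtain ⟨L, h1, h2, rfl⟩ := h
  refine UF.mono ?_ (Nat.mul_le_mul_right k' h1)
  clear h1
  induction L using Multiset.induction_on with
  | empty => exact ⟨0, by simp, by simp, by simp [rs]⟩
  | cons d L ih =>
    have := (h'.div (h2 d (Multiset.mem_cons_self _ _))).add
      (ih fun n hn => h2 n (Multiset.mem_cons_of_mem hn))
    rw [Multiset.card_cons, rs_cons]
    convert this using 1 <;> ring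

lemma UF.one {d Q : ℕ} (hQ : 0 < Q) (h : d ∣ Q) : UF 1 (d / Q) := by
  obtain ⟨e, rfl⟩ := h
  have hd : 0 < d := Nat.pos_of_mul_pos_right hQ
  have he : 0 < e := Nat.pos_of_mul_pos_left hQ
  refine ⟨{e}, by simp, by simpa using he, ?_⟩
  simp only [rs, Multiset.map_singleton, Multiset.sum_singleton]
  push_cast
  field_simp

end Vale.Agent.P012
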