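import Vale.Agent.P012.Main2

namespace Vale.Agent.P012

lemma den_bound (m : ℕ) (j : ℕ) : ∀ (L : Multiset ℕ) (p : ℤ) (q : ℕ), L.card = j → j ≤ m → 0 < q →
    (∀ n ∈ L, 0 < n) → rs L = p / q → ∀ n ∈ L, n ≤ (m * q) ^ 2 ^ j := by
  induction j with
  | zero => intro L p q h _ _ _ _ n hn; rw [Multiset.card_eq_zero.mp h] at hn; simp at hn
  | succ j ih =>
    intro L p q h1 hm hq h2 h3
    have hne : L ≠ 0 := fun e => by simp [e] at h1
    obtain ⟨n, hn, hmin⟩ := L.toFinset.exists_min_image id (Multiset.toFinset_nonempty.mpr hne)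
    rw [Multiset.mem_toFinset] at hn
    have hn0 : (0 : ℚ) < n := by exact_mod_cast h2 n hn
    have hq0 : (0 : ℚ) < q := by exact_mod_cast hq
    have b1 : rs L ≤ (j + 1 : ℚ) * (1 / n) := by
      have := Multiset.sum_le_card_nsmul (L.map fun n : ℕ => (1 / n : ℚ)) (1 / n) fun x hx => by
        obtain ⟨y, hy, rfl⟩ := Multiset.mem_map.mp hx
        exact one_div_le_one_div_of_le hn0
          (by exact_mod_cast hmin y (Multiset.mem_toFinset.mpr hy))
      rw [Multiset.card_map, h1, nsmul_eq_mul] at this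
      exact_mod_cast this
    obtain ⟨L', rfl⟩ := Multiset.exists_cons_of_mem hn
    have b2 : 0 < rs (n ::ₘ L') := by
      rw [rs_cons]
      have := rs_nonneg L'
      have : (0 : ℚ) < 1 / n := by positivity
      linarith
    have b3 : (1 : ℚ) ≤ p := by
      rw [h3] at b2
      have : (0 : ℚ) < p := (div_pos_iff_of_pos_right hq0).mp b2
      exact_mod_cast this
    have b4 : n ≤ m * q := by
      rw [h3, mul_one_div, div_le_div_iff₀ hq0 hn0] at b1
      have b5 : (j + 1 : ℚ) ≤ m := by exact_mod_cast hm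
      have : (n : ℚ) ≤ m * q := by nlinarith
      exact_mod_cast this
    have b6 := ih L' (p * n - q) (q * n) (by simpa using h1) (by omega)
      (Nat.mul_pos hq (h2 n hn)) (fun y hy => h2 y (Multiset.mem_cons_of_mem hy)) (by
        rw [rs_cons] at h3
        push_cast
        field_simp
        field_simp at h3
        linarith)
    intro y hy
    rcases Multiset.mem_cons.mp hy with rfl | hy
    · exact b4.trans (Nat.le_self_pow (by positivity) _)
    · refine (b6 y hy).trans ?_
      rw [pow_succ', pow_mul]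
      exact Nat.pow_le_pow_left (by rw [sq, ← mul_assoc]; exact Nat.mul_le_mul_left _ b4) _

theorem lower {b : ℕ} (hb : 2 ≤ b) (S : Finset ℕ) (h1 : ∀ n ∈ S, 2 ≤ n)
    (h2 : ∑ n ∈ S, (1 / (n : ℚ)) = ((b - 1 : ℕ) : ℚ) / b) :
    Real.log (Real.log b) ≤ 2 * (S.card + 1) := by
  have hb0 : (0 : ℚ) < b := by exact_mod_cast (by omega : 0 < b)
  have h3 := den_bound (S.card + 1) (S.card + 1) (b ::ₘ S.val) 1 1 (by simp) le_rfl one_pos
    (fun n hn => by
      rcases Multiset.mem_cons.mp hn with rfl | hn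
      · omega
      · exact lt_of_lt_of_le (by norm_num) (h1 n hn))
    (by
      rw [rs_cons, show rs S.val = ∑ n ∈ S, (1 / (n : ℚ)) from rfl, h2,
        Nat.cast_sub (by omega)]
      field_simp
      simp) b (Multiset.mem_cons_self _ _)
  generalize hk : S.card + 1 = k at h3
  have hk' : (S.card : ℝ) + 1 = k := by exact_mod_cast hk
  rw [hk']
  have k0 : (0 : ℝ) < k := by exact_mod_cast (by omega : 0 < k)
  have b1 : (1 : ℝ) < b := by exact_mod_cast hb
  have a1 : Real.log b ≤ 2 ^ k * k := by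
    calc Real.log b ≤ Real.log ((k : ℝ) ^ 2 ^ k) :=
          Real.log_le_log (by linarith) (by rw [mul_one] at h3; exact_mod_cast h3)
      _ = 2 ^ k * Real.log k := by rw [Real.log_pow]; push_cast; ring
      _ ≤ _ := by gcongr; linarith [Real.log_le_sub_one_of_pos k0]
  calc _ ≤ Real.log (2 ^ k * k) := Real.log_le_log (Real.log_pos b1) a1
    _ = k * Real.log 2 + Real.log k := by rw [Real.log_mul (by positivity) k0.ne', Real.log_pow]
    _ ≤ _ := by nlinarith [Real.log_le_sub_one_of_pos k0, Real.log_two_lt_d9]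

end Vale.Agent.P012
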