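import Vale.Agent.P012.Steps
import Vale.Agent.P012.Greedy

namespace Vale.Agent.P012

lemma rs_div {M c : ℕ} (hM : 0 < M) (hc : 0 < c) (L : Multiset ℕ) (h : ∀ d ∈ L, d ∣ M) :
    rs (L.map fun d => c * (M / d)) = L.sum / (c * M) := by
  induction L using Multiset.induction_on with
  | empty => simp [rs]
  | cons d L ih =>
    rw [Multiset.map_cons, rs_cons, ih fun y hy => h y (Multiset.mem_cons_of_mem hy),
      Multiset.sum_cons]
    obtain ⟨e, he⟩ := h d (Multiset.mem_cons_self _ _)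
    have hd : 0 < d := Nat.pos_of_ne_zero fun h0 => by simp [h0] at he; omega
    have he0 : 0 < e := Nat.pos_of_ne_zero fun h0 => by simp [h0] at he; omega
    rw [he, Nat.mul_div_cancel_left _ hd]
    push_cast
    field_simp

lemma main {l a b : ℕ} (hl : 6 ≤ l) (hab : a < b) (hb : b ≤ 2 ^ 2 ^ l) :
    ∃ L : Multiset ℕ, (∀ n ∈ L, 0 < n) ∧ rs L = a / b ∧ L.card ≤ (2 * K0 + 600) * l ^ 2 := by
  obtain ⟨L, a', b', k1, k2, k3, k4, k5, k6⟩ := greedy (R := 2 ^ (24 * l * 2 ^ l)) (by positivity)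
    (2 * l + 2 + 1) a b 1 (by omega) (by omega)
  have n1 := num1 hl
  have k7 : a' * 2 ^ (24 * l * 2 ^ l) ≤ b' := by
    refine k6.elim id fun h => le_trans (Nat.mul_le_mul_left _ (le_trans ?_ (iter_big _))) h.le
    refine Nat.pow_le_pow_right (by norm_num) ?_
    rw [show 2 ^ (2 * l + 2) = (4 * 2 ^ l) * 2 ^ l by ring]
    exact Nat.mul_le_mul_right _ (by omega)
  obtain ⟨k, M, N, ⟨hM, h1⟩, h2, h3, h4⟩ := (inv hl).ext hl (1 + 12 * l * (2 * l + 3))
  have h5 : b' ≤ N := by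
    refine k5.trans (le_trans (Nat.mul_le_mul_right _ hb) (le_trans ?_ h3))
    rw [← pow_mul, ← pow_add]
    refine Nat.pow_le_pow_right (by norm_num) ?_
    nlinarith [Nat.zero_le (2 ^ l)]
  have h6 : a' * M / b' ≤ N := by
    refine Nat.div_le_of_le_mul ?_
    calc a' * M ≤ a' * (2 ^ (24 * l * 2 ^ l) * N) := by gcongr
      _ = a' * 2 ^ (24 * l * 2 ^ l) * N := by ring
      _ ≤ _ := by gcongr
  obtain ⟨L1, c1, c2, c3⟩ := h1 _ h6
  obtain ⟨L2, d1, d2, d3⟩ := h1 (a' * M % b') ((Nat.mod_lt _ k3).le.trans h5)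
  refine ⟨L + (L1.map (fun d => 1 * (M / d)) + L2.map fun d => b' * (M / d)), ?_, ?_, ?_⟩
  · intro n hn
    simp only [Multiset.mem_add, Multiset.mem_map] at hn
    rcases hn with hn | ⟨d, hd, rfl⟩ | ⟨d, hd, rfl⟩
    · exact k2 n hn
    · exact Nat.mul_pos one_pos (Nat.div_pos (Nat.le_of_dvd hM (c2 d hd))
        (Nat.pos_of_dvd_of_pos (c2 d hd) hM))
    · exact Nat.mul_pos k3 (Nat.div_pos (Nat.le_of_dvd hM (d2 d hd))
        (Nat.pos_of_dvd_of_pos (d2 d hd) hM))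
  · rw [rs_add, rs_add, rs_div hM one_pos _ c2, rs_div hM k3 _ d2, c3, d3, k4]
    have e : (b' : ℚ) * (a' * M / b' : ℕ) + (a' * M % b' : ℕ) = a' * M := by
      exact_mod_cast Nat.div_add_mod _ _
    generalize a' * M / b' = q at *
    generalize a' * M % b' = r at *
    congr 1
    push_cast
    field_simp
    linarith
  · simp only [Multiset.card_add, Multiset.card_map]
    have : K0 ≤ K0 * l ^ 2 := Nat.le_mul_of_pos_right _ (by positivity)
    generalize K0 = K at *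
    nlinarith

lemma lg {b : ℕ} (hb : 2 ^ 32 ≤ b) :
    ∃ l : ℕ, 6 ≤ l ∧ b ≤ 2 ^ 2 ^ l ∧ (l : ℝ) ≤ 3 * Real.log (Real.log b) := by
  have h1 : 32 ≤ Nat.log 2 b := Nat.le_log_of_pow_le (by norm_num) hb
  have h2 : 5 ≤ Nat.log 2 (Nat.log 2 b) := Nat.le_log_of_pow_le (by norm_num) h1
  have h3 := Nat.pow_log_le_self 2 (x := b) (by omega)
  have h4 := Nat.pow_log_le_self 2 (x := Nat.log 2 b) (by omega)
  have h5 := Nat.lt_pow_succ_log_self (b := 2) (by norm_num) b
  have h6 := Nat.lt_pow_succ_log_self (b := 2) (by norm_num) (Nat.log 2 b)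
  generalize Nat.log 2 (Nat.log 2 b) = j at *
  generalize Nat.log 2 b = m at *
  refine ⟨j + 1, by omega, h5.le.trans (Nat.pow_le_pow_right (by norm_num) h6), ?_⟩
  obtain ⟨i, rfl⟩ : ∃ i, j = i + 1 := ⟨j - 1, by omega⟩
  have l2 := Real.log_two_gt_d9
  have a1 : (m : ℝ) * Real.log 2 ≤ Real.log b := by
    rw [← Real.log_pow]; exact Real.log_le_log (by positivity) (by exact_mod_cast h3)
  have a2 : (2 : ℝ) ^ (i + 1) ≤ m := by exact_mod_cast h4
  have a3 : (2 : ℝ) ^ i ≤ Real.log b := by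
    rw [pow_succ] at a2
    have : (0 : ℝ) < 2 ^ i := by positivity
    nlinarith
  have a4 := Real.log_le_log (by positivity) a3
  rw [Real.log_pow] at a4
  have a5 : (4 : ℝ) ≤ i := by exact_mod_cast (by omega : 4 ≤ i)
  push_cast
  nlinarith

end Vale.Agent.P012
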