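import Vale.Agent.P012.Cover2
import Vale.Agent.P012.Greedy2
import Vale.Agent.P012.Main

open Finset

namespace Vale.Agent.P012

lemma good {y Q : ℕ} (hQ : 0 < Q) (h : Cov y Q) : UF 4 (y / Q) := by
  obtain ⟨a, b, c, d, ha, hb, hc, hd, e⟩ := h 0
  obtain ⟨τ, hτ⟩ := (Nat.modEq_zero_iff_dvd).mp e
  have a0 := Nat.pos_of_dvd_of_pos ha hQ
  have τ0 : 0 < τ := Nat.pos_of_ne_zero fun h0 => by rw [h0] at hτ; omega
  have := ((((UF.one hQ ha).add (UF.one hQ hb)).add (UF.one hQ hc)).add (UF.one hQ hd)).div τ0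
  convert this using 1
  have e2 : (a : ℚ) + b + c + d = y * τ := by exact_mod_cast hτ
  field_simp
  linarith

def Cv (x Q σ : ℕ) : Prop := ∀ r : ℕ, ∃ s ≤ σ, s ≡ r [MOD x] ∧ UF 40 (s / Q)

theorem level3 {l : ℕ} (hl : 6 ≤ l) : ∃ x Q : ℕ, 2 ^ (4 * 2 ^ l) ≤ x ∧ 0 < Q ∧
    Q ≤ 2 ^ (24 * l * 2 ^ l) ∧ Cv x Q (2 ^ (8 * 2 ^ l + 2)) := by
  classical
  obtain ⟨Q, G, h1, h2, h3, h4⟩ := level2 hl
  have n1 := num1 hl
  generalize 2 ^ l = t at *
  obtain ⟨x, hx, x1, x2⟩ := Nat.exists_prime_lt_and_le_two_mul (2 ^ (4 * t)) (by positivity)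
  have : Fact x.Prime := ⟨hx⟩
  have hc : (G.image fun y : ℕ => (y : ZMod x)).card = G.card :=
    card_image_of_injOn fun y hy z hz e => by
      have := (ZMod.natCast_eq_natCast_iff' _ _ _).mp e
      rwa [Nat.mod_eq_of_lt ((h4 y hy).1.trans_lt x1),
        Nat.mod_eq_of_lt ((h4 z hz).1.trans_lt x1)] at this
  obtain ⟨ξ, hξ, hcov⟩ := cover (G.image fun y : ℕ => (y : ZMod x)) (by
    rw [hc]
    have b2 := Nat.pow_le_pow_left x2 2
    have b3 := Nat.pow_le_pow_left h3 3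
    have b4 : 4 * (2 ^ (4 * t)) ^ 2 < (2 ^ (3 * t)) ^ 3 := by
      rw [← pow_mul, ← pow_mul, show 4 = 2 ^ 2 from rfl, ← pow_add]
      exact Nat.pow_lt_pow_right (by norm_num) (by omega)
    rw [mul_pow] at b2
    omega)
  refine ⟨x, Q * Q, x1.le, by positivity, ?_, fun r => ?_⟩
  · calc Q * Q ≤ 2 ^ (12 * l * t) * 2 ^ (12 * l * t) := by gcongr
      _ = _ := by rw [← pow_add]; congr 1; ring
  obtain ⟨a, ha, b, hb, c, hc', d, hd, e⟩ := hcov r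
  obtain ⟨ξ', k0, rfl⟩ := mem_image.mp hξ
  obtain ⟨a', k1, rfl⟩ := mem_image.mp ha
  obtain ⟨b', k2, rfl⟩ := mem_image.mp hb
  obtain ⟨c', k3, rfl⟩ := mem_image.mp hc'
  obtain ⟨d', k4, rfl⟩ := mem_image.mp hd
  refine ⟨a' + ξ' * b' + c' + ξ' * d', ?_, ?_, ?_⟩
  · have e1 : 2 ^ (8 * t + 2) = 4 * (2 ^ (4 * t) * 2 ^ (4 * t)) := by ring
    have e2 := Nat.mul_le_mul (h4 _ k0).1 (h4 _ k2).1
    have e3 := Nat.mul_le_mul (h4 _ k0).1 (h4 _ k4).1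
    have e4 : 2 ^ (4 * t) ≤ 2 ^ (4 * t) * 2 ^ (4 * t) := Nat.le_mul_self _
    have e5 := (h4 _ k1).1
    have e6 := (h4 _ k3).1
    omega
  · rw [← ZMod.natCast_eq_natCast_iff, e]; push_cast; ring
  · have g := fun y hy => good h1 (h4 y hy).2
    have := ((((g _ k1).div h1).add ((g _ k0).mul (g _ k2))).add ((g _ k3).div h1)).add
      ((g _ k0).mul (g _ k4))
    convert this using 1
    push_cast
    field_simp

def Su (k M N : ℕ) : Prop := 0 < M ∧ ∀ n ≤ N, UF k (n / M)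

lemma Su.mul {k M N : ℕ} (h : Su k M N) {Q : ℕ} (hQ : 0 < Q) : Su k (Q * M) N :=
  ⟨Nat.mul_pos hQ h.1, fun n hn => by
    have := (h.2 n hn).div hQ
    rwa [div_div, mul_comm, ← Nat.cast_mul] at this⟩

lemma Su.step {k M N x Q σ : ℕ} (h : Su k M N) (hc : Cv x Q σ) (hQM : Q ∣ M)
    (hN : σ ≤ N) (hx : 0 < x) : Su (k + 40) (x * M) (x * N) := by
  refine ⟨Nat.mul_pos hx h.1, fun n hn => ?_⟩
  by_cases h0 : n ≤ N
  · exact ((h.mul hx).2 n h0).mono (by omega)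
  obtain ⟨s, s1, s2, s3⟩ := hc n
  obtain ⟨m, hm⟩ := (Nat.modEq_iff_dvd' (by omega)).mp s2
  have hmN : m ≤ N := Nat.le_of_mul_le_mul_left (by omega) hx
  obtain ⟨e, rfl⟩ := hQM
  have hQ : 0 < Q := Nat.pos_of_mul_pos_right h.1
  have he : 0 < e := Nat.pos_of_mul_pos_left h.1
  have := (h.2 m hmN).add (s3.div (Nat.mul_pos hx he))
  convert this using 1
  obtain rfl : n = x * m + s := by omega
  push_cast
  field_simp

lemma Su.iter {k M N x Q σ : ℕ} (h : Su k M N) (hc : Cv x Q σ) (hQM : Q ∣ M)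
    (hN : σ ≤ N) (hx : 0 < x) (u : ℕ) : Su (k + 40 * u) (x ^ u * M) (x ^ u * N) := by
  induction u with
  | zero => simpa using h
  | succ u ih =>
    have := ih.step hc (hQM.mul_left _) (hN.trans (Nat.le_mul_of_pos_left _ (by positivity))) hx
    rwa [← mul_assoc, ← mul_assoc, ← pow_succ'] at this

def K1 : ℕ := 2 ^ (8 * 2 ^ 6 + 2)

def Inv2 (l : ℕ) : Prop :=
  ∃ k M N : ℕ, Su k M N ∧ k ≤ K1 + 80 * l ∧ 2 ^ (8 * 2 ^ l + 2) ≤ N ∧
    M ≤ 2 ^ (24 * l * 2 ^ l) * N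

lemma Inv2.ext {l : ℕ} (hl : 6 ≤ l) (h : Inv2 l) (u : ℕ) :
    ∃ k M N : ℕ, Su k M N ∧ k ≤ K1 + 80 * l + 40 * u ∧ 2 ^ (4 * 2 ^ l * u + (8 * 2 ^ l + 2)) ≤ N ∧
      M ≤ 2 ^ (48 * l * 2 ^ l) * N := by
  obtain ⟨k, M, N, h1, h2, h3, h4⟩ := h
  obtain ⟨x, Q, a1, a2, a3, a4⟩ := level3 hl
  have hx : 0 < x := lt_of_lt_of_le (by positivity) a1
  refine ⟨_, _, _, (h1.mul a2).iter a4 (dvd_mul_right _ _) h3 hx u, by omega, ?_, ?_⟩
  · rw [pow_add, pow_mul]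
    exact Nat.mul_le_mul (Nat.pow_le_pow_left a1 _) h3
  · calc x ^ u * (Q * M) ≤ x ^ u * (2 ^ (24 * l * 2 ^ l) * (2 ^ (24 * l * 2 ^ l) * N)) := by gcongr
      _ = _ := by
        rw [show 48 * l * 2 ^ l = 24 * l * 2 ^ l + 24 * l * 2 ^ l by ring, pow_add]; ring

lemma uf_nat (n : ℕ) : UF n (n / (1 : ℕ)) := by
  refine ⟨Multiset.replicate n 1, by simp, fun d hd => ?_, by simp [rs]⟩
  rw [Multiset.eq_of_mem_replicate hd]; exact one_pos

lemma inv2 {l : ℕ} (hl : 6 ≤ l) : Inv2 l := by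
  induction l, hl using Nat.le_induction with
  | base =>
    refine ⟨K1, 1, K1, ⟨one_pos, fun n hn => (uf_nat n).mono hn⟩, by omega, le_rfl, ?_⟩
    exact Nat.mul_pos (Nat.two_pow_pos _) (Nat.two_pow_pos _)
  | succ l hl ih =>
    obtain ⟨k, M, N, h1, h2, h3, h4⟩ := ih.ext hl 2
    refine ⟨k, M, N, h1, by omega, le_trans (le_of_eq ?_) h3, h4.trans ?_⟩
    · congr 1; ring
    · refine Nat.mul_le_mul_right _ (Nat.pow_le_pow_right (by norm_num) ?_)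
      rw [pow_succ]; nlinarith [Nat.zero_le (2 ^ l)]

lemma main2 {l a b : ℕ} (hl : 6 ≤ l) (hab : a < b) (hb : b ≤ 2 ^ 2 ^ l) :
    UF ((2 * K1 + 2200) * l) (a / b) := by
  obtain ⟨L, a', b', k1, k2, k3, k4, k5, k6⟩ := greedy2 (2 ^ (48 * l * 2 ^ l))
    (2 * l + 3 + 1) a b 1 (by omega) one_pos (by omega)
  have n1 := num1 hl
  have k7 : a' * 2 ^ (48 * l * 2 ^ l) ≤ b' := by
    refine k6.elim id fun h => le_trans (Nat.mul_le_mul_left _ (le_trans ?_ (iter_big _))) h.le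
    refine Nat.pow_le_pow_right (by norm_num) ?_
    rw [show 2 ^ (2 * l + 3) = (8 * 2 ^ l) * 2 ^ l by ring]
    exact Nat.mul_le_mul_right _ (by omega)
  have k8 : b' ≤ b * (2 ^ (48 * l * 2 ^ l)) ^ 2 := by
    rcases k5 with rfl | k5
    · exact Nat.le_mul_of_pos_right _ (by positivity)
    · simpa using k5
  obtain ⟨k, M, N, ⟨hM, h1⟩, h2, h3, h4⟩ := (inv2 hl).ext hl (24 * l)
  have h5 : b' ≤ N := by
    refine k8.trans (le_trans (Nat.mul_le_mul_right _ hb) (le_trans ?_ h3))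
    rw [← pow_mul, ← pow_add]
    refine Nat.pow_le_pow_right (by norm_num) ?_
    nlinarith [Nat.zero_le (2 ^ l)]
  have h6 : a' * M / b' ≤ N := by
    refine Nat.div_le_of_le_mul ?_
    calc a' * M ≤ a' * (2 ^ (48 * l * 2 ^ l) * N) := by gcongr
      _ = a' * 2 ^ (48 * l * 2 ^ l) * N := by ring
      _ ≤ _ := by gcongr
  have c0 : UF (2 * l + 3 + 1) (rs L) := ⟨L, k1, k2, rfl⟩
  have c1 := c0.add ((h1 _ h6).add ((h1 (a' * M % b') ((Nat.mod_lt _ k3).le.trans h5)).div k3))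
  have c2 : (a / b : ℚ) = rs L + ((a' * M / b' : ℕ) / M + (a' * M % b' : ℕ) / M / b') := by
    rw [k4]
    have e : (b' : ℚ) * (a' * M / b' : ℕ) + (a' * M % b' : ℕ) = a' * M := by
      exact_mod_cast Nat.div_add_mod _ _
    generalize a' * M / b' = q at *
    generalize a' * M % b' = r at *
    congr 1
    field_simp
    linarith
  rw [c2]
  refine c1.mono ?_
  have : K1 ≤ K1 * l := Nat.le_mul_of_pos_right _ (by omega)
  generalize K1 = K at *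
  nlinarith

end Vale.Agent.P012
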