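import Vale.Agent.P012.Cover

open Finset

namespace Vale.Agent.P012

def Rep (k M n : ℕ) : Prop :=
  ∃ L : Multiset ℕ, L.card ≤ k ∧ (∀ d ∈ L, d ∣ M) ∧ L.sum = n

def St (k M N : ℕ) : Prop := 0 < M ∧ ∀ n ≤ N, Rep k M n

lemma St.mul {k M N : ℕ} (h : St k M N) {Q : ℕ} (hQ : 0 < Q) : St k (Q * M) N :=
  ⟨Nat.mul_pos hQ h.1, fun n hn => by
    obtain ⟨L, h1, h2, h3⟩ := h.2 n hn
    exact ⟨L, h1, fun d hd => (h2 d hd).mul_left _, h3⟩⟩

lemma St.step {k M N x Q : ℕ} (h : St k M N) (hc : Cov x Q) (hQM : Q ∣ M) (hQ : 0 < Q)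
    (hN : 4 * Q ≤ N) (hx : 0 < x) : St (k + 4) (x * M) (x * N) := by
  refine ⟨Nat.mul_pos hx h.1, fun n hn => ?_⟩
  by_cases h0 : n ≤ N
  · obtain ⟨L, h1, h2, h3⟩ := h.2 n h0
    exact ⟨L, by omega, fun d hd => (h2 d hd).mul_left _, h3⟩
  obtain ⟨a, b, c, d, ha, hb, hc', hd, e⟩ := hc n
  have a1 := Nat.le_of_dvd hQ ha
  have a2 := Nat.le_of_dvd hQ hb
  have a3 := Nat.le_of_dvd hQ hc'
  have a4 := Nat.le_of_dvd hQ hd
  obtain ⟨m, hm⟩ := (Nat.modEq_iff_dvd' (by omega)).mp e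
  have hmN : m ≤ N := Nat.le_of_mul_le_mul_left (by omega) hx
  obtain ⟨L, h1, h2, h3⟩ := h.2 m hmN
  refine ⟨a ::ₘ b ::ₘ c ::ₘ d ::ₘ L.map (x * ·), by simp; omega, ?_, ?_⟩
  · intro y hy
    simp only [Multiset.mem_cons, Multiset.mem_map] at hy
    rcases hy with rfl | rfl | rfl | rfl | ⟨z, hz, rfl⟩
    · exact (ha.trans hQM).mul_left _
    · exact (hb.trans hQM).mul_left _
    · exact (hc'.trans hQM).mul_left _
    · exact (hd.trans hQM).mul_left _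
    · exact Nat.mul_dvd_mul_left _ (h2 z hz)
  · have e2 : (L.map (x * ·)).sum = x * m := by
      rw [← h3]; simpa using Multiset.sum_map_mul_left (s := L) (a := x) (f := id)
    simp only [Multiset.sum_cons, e2]
    omega

lemma St.iter {k M N x Q : ℕ} (h : St k M N) (hc : Cov x Q) (hQM : Q ∣ M) (hQ : 0 < Q)
    (hN : 4 * Q ≤ N) (hx : 0 < x) (u : ℕ) : St (k + 4 * u) (x ^ u * M) (x ^ u * N) := by
  induction u with
  | zero => simpa using h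
  | succ u ih =>
    have := ih.step hc (hQM.mul_left _) hQ
      (hN.trans (Nat.le_mul_of_pos_left _ (by positivity))) hx
    rwa [← mul_assoc, ← mul_assoc, ← pow_succ'] at this

def K0 : ℕ := 2 ^ (12 * 6 * 2 ^ 6 + 2)

def Inv (l : ℕ) : Prop :=
  ∃ k M N : ℕ, St k M N ∧ k ≤ K0 + 48 * l ^ 2 ∧ 2 ^ (12 * l * 2 ^ l + 2) ≤ N ∧
    M ≤ 2 ^ (12 * l * 2 ^ l) * N

lemma Inv.ext {l : ℕ} (hl : 6 ≤ l) (h : Inv l) (u : ℕ) :
    ∃ k M N : ℕ, St k M N ∧ k ≤ K0 + 48 * l ^ 2 + 4 * u ∧ 2 ^ (2 * 2 ^ l * u + 2) ≤ N ∧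
      M ≤ 2 ^ (24 * l * 2 ^ l) * N := by
  obtain ⟨k, M, N, h1, h2, h3, h4⟩ := h
  obtain ⟨x, Q, a1, a2, a3, a4⟩ := level hl
  have hx : 0 < x := lt_of_lt_of_le (by positivity) a1
  have b1 : 4 * Q ≤ N := by rw [pow_add] at h3; omega
  refine ⟨_, _, _, (h1.mul a2).iter a4 (dvd_mul_right _ _) a2 b1 hx u, by omega, ?_, ?_⟩
  · rw [pow_add, pow_mul]
    exact Nat.mul_le_mul (Nat.pow_le_pow_left a1 _) (by omega)
  · calc x ^ u * (Q * M) ≤ x ^ u * (2 ^ (12 * l * 2 ^ l) * (2 ^ (12 * l * 2 ^ l) * N)) := by gcongr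
      _ = _ := by
        rw [show 24 * l * 2 ^ l = 12 * l * 2 ^ l + 12 * l * 2 ^ l by ring, pow_add]; ring

lemma inv {l : ℕ} (hl : 6 ≤ l) : Inv l := by
  induction l, hl using Nat.le_induction with
  | base =>
    refine ⟨K0, 1, K0, ⟨one_pos, fun n hn => ⟨Multiset.replicate n 1, by simpa using hn,
      fun d hd => by rw [Multiset.eq_of_mem_replicate hd], by simp⟩⟩, by omega, le_rfl, ?_⟩
    exact Nat.mul_pos (Nat.two_pow_pos _) (Nat.two_pow_pos _)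
  | succ l hl ih =>
    obtain ⟨k, M, N, h1, h2, h3, h4⟩ := ih.ext hl (12 * l + 12)
    refine ⟨k, M, N, h1, by nlinarith, le_trans (le_of_eq ?_) h3, h4.trans ?_⟩
    · congr 1; ring
    · refine Nat.mul_le_mul_right _ (Nat.pow_le_pow_right (by norm_num) ?_)
      rw [pow_succ]; nlinarith [Nat.zero_le (2 ^ l)]

end Vale.Agent.P012
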